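import Vale.Agent.P073Z.FACE.Top

/-!
# Cutting a face along an arc on which the function has constant sign
-/

open Set Metric Topology Filter

namespace P073

namespace Face

open A12

section cn

variable {X : Type} [TopologicalSpace X] {T T' : Set X} {a b e : X}

theorem cn_symm (h : b ∈ connectedComponentIn T a) : a ∈ connectedComponentIn T b := by
  rw [← connectedComponentIn_eq h]
  exact mem_connectedComponentIn (connectedComponentIn_nonempty_iff.1 ⟨b, h⟩)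

theorem cn_trans (h : b ∈ connectedComponentIn T a) (h' : e ∈ connectedComponentIn T b) :
    e ∈ connectedComponentIn T a := by
  rwa [connectedComponentIn_eq h]

/-- the level is not a pass level from above -/
def Up (D B : Set X) (ψ : X → ℝ) (c : ℝ) : Prop :=
  ∀ a ∈ B, ∀ b ∈ B, c < ψ a → c < ψ b → b ∈ connectedComponentIn {x ∈ D | c < ψ x} a ∨
    ∃ c' < c, b ∉ connectedComponentIn {x ∈ D | c' < ψ x} a

theorem up_mono {D D' : Set X} (h : D ⊆ D') {ψ : X → ℝ} {c c' : ℝ} (hc : c' ≤ c) :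
    connectedComponentIn {x ∈ D | c < ψ x} a ⊆ connectedComponentIn {x ∈ D' | c' < ψ x} a :=
  connectedComponentIn_mono a fun _ hx => ⟨h hx.1, hc.trans_lt hx.2⟩

theorem Up.cut {D₁ D₂ B B₁ β : Set X} {ψ : X → ℝ} {c : ℝ} (h : Up (D₁ ∪ D₂) B ψ c)
    (d₁ : IsClosed D₁) (d₂ : IsClosed D₂) (hi : D₁ ∩ D₂ = β) (hβ : IsPreconnected β)
    (hs : (∀ x ∈ β, c < ψ x) ∨ ∀ x ∈ β, ψ x < c) {p : X} (hp : p ∈ β) (hp' : p ∈ B)
    (hB : B₁ ⊆ D₁ ∩ B) : Up D₁ (β ∪ B₁) ψ c := by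
  have h1 : ∀ x ∈ β ∪ B₁, c < ψ x → ∃ y ∈ B, y ∈ connectedComponentIn {x ∈ D₁ | c < ψ x} x := by
    rintro x (hx | hx) h2
    · exact ⟨p, hp', hβ.subset_connectedComponentIn hx (fun y hy => mem_sep (hi.ge hy).1
        (hs.resolve_right (fun h3 => lt_asymm h2 (h3 x hx)) y hy)) hp⟩
    · exact ⟨x, (hB hx).2, mem_connectedComponentIn ⟨(hB hx).1, h2⟩⟩
  intro a ha b hb h2 h3
  obtain ⟨a', h4, h5⟩ := h1 a ha h2
  obtain ⟨b', h6, h7⟩ := h1 b hb h3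
  have h8 := connectedComponentIn_subset _ _ h5
  have h9 := connectedComponentIn_subset _ _ h7
  rcases h a' h4 b' h6 h8.2 h9.2 with h10 | ⟨c', hc, h10⟩
  · exact Or.inl (cn_trans h5 (cn_trans (Face.cut (W := {x | c < ψ x}) d₁ d₂ hi hβ
      (hs.imp id fun h11 => disjoint_left.2 fun x hx h12 => lt_asymm h12 (h11 x hx))
      h8.1 h9.1 h10) (cn_symm h7)))
  · exact Or.inr ⟨c', hc, fun h11 => h10 (cn_trans (cn_symm (up_mono subset_union_left hc.le h5))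
      (cn_trans (up_mono subset_union_left le_rfl h11) (up_mono subset_union_left hc.le h7)))⟩

end cn

variable {E : Type} [NormedAddCommGroup E] [NormedSpace ℝ E] {D B : Set E} {ψ : E → ℝ} {c : ℝ}
  {Z : Finset E} {I : E → Set E} {zp zm : E → E} {z : E}

theorem compl_arc (hB : IsCircle B) {A : Set E} {p q : E} (hA : IsArc A p q) (hs : A ⊆ B) :
    ∃ J, IsArc J p q ∧ A ∪ J = B ∧ A ∩ J = {p, q} := by
  obtain ⟨A₁, A₂, h1, h2, h3, h4⟩ := circle_arcs hB (hs hA.left_mem) (hs hA.right_mem) hA.ne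
  rcases arc_eq_or hA h1 h2 h4.le (h3 ▸ hs) with rfl | rfl
  · exact ⟨A₂, h2, h3, h4⟩
  · exact ⟨A₁, h1, union_comm _ _ ▸ h3, inter_comm _ _ ▸ h4⟩

/-- the data on the boundary -/
structure Hyp (D B : Set E) (ψ : E → ℝ) (c : ℝ) (Z : Finset E) (I : E → Set E) (zp zm : E → E) :
    Prop where
  ball : ConBall 2 D B
  cont : ContinuousOn ψ D
  zero : ∀ x, x ∈ Z ↔ x ∈ B ∧ ψ x = c
  arc : ∀ z ∈ Z, IsArc (I z) (zm z) (zp z) ∧ I z ⊆ B ∧ z ∈ I z ∧ ψ (zm z) < c ∧ c < ψ (zp z)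
  disj : ∀ z ∈ Z, ∀ z' ∈ Z, z ≠ z' → Disjoint (I z) (I z')

namespace Hyp

variable (h : Hyp D B ψ c Z I zp zm)
include h

theorem neg : Hyp D B (fun x => -ψ x) (-c) Z I zm zp :=
  ⟨h.ball, h.cont.neg, fun x => by rw [h.zero, neg_inj], fun z hz =>
    ⟨(h.arc z hz).1.symm, (h.arc z hz).2.1, (h.arc z hz).2.2.1, neg_lt_neg (h.arc z hz).2.2.2.2,
      neg_lt_neg (h.arc z hz).2.2.2.1⟩, h.disj⟩

theorem eq_of {w x : E} (hz : z ∈ Z) (hw : w ∈ Z) (h1 : x ∈ I z) (h2 : x ∈ I w) : z = w := by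
  by_contra h3
  exact disjoint_left.1 (h.disj z hz w hw h3) h1 h2

theorem pos_of {S : Set E} (hS : IsPreconnected S) (hB : S ⊆ B) (h0 : ∀ w ∈ S, w ∉ Z) {p : E}
    (hp : p ∈ S) (h1 : c < ψ p) : ∀ x ∈ S, c < ψ x := by
  intro x hx
  by_contra h2
  obtain ⟨w, hw, h3⟩ := hS.intermediate_value hx hp (h.cont.mono (hB.trans h.ball.1))
    ⟨not_lt.1 h2, h1.le⟩
  exact h0 w hw ((h.zero w).2 ⟨hB hw, h3⟩)

theorem neg_of {S : Set E} (hS : IsPreconnected S) (hB : S ⊆ B) (h0 : ∀ w ∈ S, w ∉ Z) {p : E}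
    (hp : p ∈ S) (h1 : ψ p < c) : ∀ x ∈ S, ψ x < c := fun x hx =>
  neg_lt_neg_iff.1 (h.neg.pos_of hS hB h0 hp (neg_lt_neg h1) x hx)

theorem halves (hz : z ∈ Z) : ∃ Im Ip, IsArc Im (zm z) z ∧ IsArc Ip z (zp z) ∧ Im ∪ Ip = I z ∧
    (∀ x ∈ Im, x ≠ z → ψ x < c) ∧ ∀ x ∈ Ip, x ≠ z → c < ψ x := by
  obtain ⟨h1, h2, h3, h4, h5⟩ := h.arc z hz
  have h6 := ((h.zero z).1 hz).2
  obtain ⟨Im, Ip, h7, h8, h9, -⟩ := arc_split h1 h3 (fun e => h4.ne (e ▸ h6))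
    (fun e => h5.ne' (e ▸ h6))
  have k1 : Im ⊆ I z := h9 ▸ subset_union_left
  have k2 : Ip ⊆ I z := h9 ▸ subset_union_right
  exact ⟨Im, Ip, h7, h8, h9, fun x hx hx' => h.neg_of (arc_sdiff_left h7.symm)
    (sdiff_subset.trans (k1.trans h2)) (fun w hw h10 => hw.2
      (h.eq_of h10 hz (h.arc w h10).2.2.1 (k1 hw.1))) ⟨h7.left_mem, h7.ne⟩ h4 x ⟨hx, hx'⟩,
    fun x hx hx' => h.pos_of (arc_sdiff_left h8)
    (sdiff_subset.trans (k2.trans h2)) (fun w hw h10 => hw.2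
      (h.eq_of h10 hz (h.arc w h10).2.2.1 (k2 hw.1))) ⟨h8.right_mem, h8.ne.symm⟩ h5 x ⟨hx, hx'⟩⟩

theorem closed_ge : IsClosed {x ∈ D | c ≤ ψ x} :=
  h.cont.preimage_isClosed_of_isClosed h.ball.isClosed isClosed_Ici

theorem closed_I (p : E → Prop) : IsClosed (⋃ w ∈ {w | w ∈ Z ∧ p w}, I w) :=
  (Z.finite_toSet.subset fun _ hw => hw.1).isClosed_biUnion fun w hw => (h.arc w hw.1).1.isClosed

/-- the next zero on the positive side -/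
theorem nbr (hz : z ∈ Z) : ∃ w ∈ Z, w ≠ z ∧ ∃ A, IsArc A (zp w) (zp z) ∧ A ⊆ B ∧
    (∀ x ∈ A, c < ψ x) ∧ ∀ u ∈ Z, A ∩ I u ⊆ {zp w, zp z} := by
  obtain ⟨h1, h2, h3, h4, h5⟩ := h.arc z hz
  obtain ⟨J, j1, j2, j3⟩ := compl_arc h.ball.isCircleD h1 h2
  have hJ : J ⊆ B := j2 ▸ subset_union_right
  have c₂ : IsClosed {x ∈ D | ψ x ≤ c} :=
    h.cont.preimage_isClosed_of_isClosed h.ball.isClosed isClosed_Iic
  obtain ⟨a, ⟨ha, haK⟩, A, a1, a2, a3⟩ := arc_last_exit j1 (c₂.union (h.closed_I (· ≠ z)))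
    (Or.inl ⟨h.ball.1 (h2 h1.left_mem), h4.le⟩) (by
      rintro (h6 | h6)
      · exact h5.not_ge h6.2
      · obtain ⟨w, hw, h7⟩ := mem_iUnion₂.1 h6
        exact hw.2 (h.eq_of hw.1 hz h7 h1.right_mem))
  have hA : A ⊆ B := a2.trans hJ
  have k1 : ∀ x ∈ A, x ≠ a → c < ψ x := fun x hx hx' => not_le.1 fun h6 =>
    hx' (a3.le ⟨hx, Or.inl ⟨h.ball.1 (hA hx), h6⟩⟩)
  have k2 := arc_subset_closure_inner a1 a1.left_mem
  have k3 : c ≤ ψ a := (h.closed_ge.closure_subset_iff.2 (fun x hx => mem_sep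
    (h.ball.1 (hA hx.1)) (k1 x hx.1 fun e => hx.2 (Or.inl e)).le) k2).2
  obtain ⟨w, hw, hwz, haw⟩ : ∃ w ∈ Z, w ≠ z ∧ a ∈ I w := by
    rcases haK with h6 | h6
    · have h7 := (h.zero a).2 ⟨hJ ha, le_antisymm h6.2 k3⟩
      refine ⟨a, h7, ?_, (h.arc a h7).2.2.1⟩
      rintro rfl
      rcases j3.le ⟨h3, ha⟩ with e | e
      · exact h4.not_ge (e ▸ k3)
      · exact h5.not_ge (e ▸ h6.2)
    · obtain ⟨w, hw, h7⟩ := mem_iUnion₂.1 h6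
      exact ⟨w, hw.1, hw.2, h7⟩
  obtain ⟨w1, w2, -, w4, w5⟩ := h.arc w hw
  obtain ⟨J', i1, i2, i3⟩ := compl_arc h.ball.isCircleD w1 w2
  have k4 : a ∈ J' := i1.isClosed.closure_subset_iff.2 (fun x hx => (i2.ge (hA hx.1)).resolve_left
    fun h6 => hx.2 (Or.inl (a3.le ⟨hx.1, Or.inr (mem_biUnion (t := I) ⟨hw, hwz⟩ h6)⟩))) k2
  obtain rfl : a = zp w := (i3.le ⟨haw, k4⟩).resolve_left fun e => w4.not_ge (e ▸ k3)
  refine ⟨w, hw, hwz, A, a1, hA, fun x hx => ?_, fun u hu x hx => ?_⟩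
  · by_cases h6 : x = zp w
    · rwa [h6]
    · exact k1 x hx h6
  · by_cases h6 : u = z
    · rcases j3.le ⟨h6 ▸ hx.2, a2 hx.1⟩ with e | e
      · exact Or.inl (a3.le ⟨hx.1, Or.inl ⟨h.ball.1 (hA hx.1), e ▸ h4.le⟩⟩)
      · exact Or.inr e
    · exact Or.inl (a3.le ⟨hx.1, Or.inr (mem_biUnion (t := I) ⟨hu, h6⟩ hx.2)⟩)

/-- a positive continuum in the boundary touches at most two of the arcs -/
theorem three {w u : E} (hz : z ∈ Z) (hw : w ∈ Z) (hwz : w ≠ z) {A T : Set E}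
    (a1 : IsArc A (zp w) (zp z)) (a2 : A ⊆ B) (a3 : ∀ u ∈ Z, A ∩ I u ⊆ {zp w, zp z})
    (hT : IsPreconnected T) (hB : T ⊆ B) (hp : ∀ x ∈ T, c < ψ x) (h1 : zp z ∈ T) (hu : u ∈ Z)
    (h2 : zp u ∈ T) : u = z ∨ u = w := by
  obtain ⟨z1, z2, -, z4, z5⟩ := h.arc z hz
  obtain ⟨w1, w2, -, w4, -⟩ := h.arc w hw
  have hX := (w1.trans a1 fun x hx => (a3 w hw ⟨hx.2, hx.1⟩).resolve_right fun e =>
    hwz (h.eq_of hw hz hx.1 (e ▸ z1.right_mem))).trans z1.symm fun x hx => hx.1.elim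
      (fun h3 => absurd (h.eq_of hw hz h3 hx.2) hwz) fun h3 =>
        (a3 z hz ⟨h3, hx.2⟩).resolve_left fun e => hwz (h.eq_of hw hz (e ▸ w1.right_mem) hx.2)
  obtain ⟨Y, y1, y2, y3⟩ := compl_arc h.ball.isCircleD hX
    (union_subset (union_subset w2 a2) z2)
  have h3 : Disjoint T ((I w ∪ A ∪ I z) ∩ Y) := by
    rw [y3, disjoint_right]
    rintro x (rfl | rfl) hx
    · exact lt_asymm w4 (hp _ hx)
    · exact lt_asymm z4 (hp _ hx)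
  have h4 := (h.arc u hu).1.right_mem
  rcases subset_or hT hX.isClosed y1.isClosed (y2 ▸ hB) h3 with h5 | h5
  · rcases h5 h2 with (h6 | h6) | h6
    · exact Or.inr (h.eq_of hu hw h4 h6)
    · rcases a3 u hu ⟨h6, h4⟩ with e | e
      · exact Or.inr (h.eq_of hu hw h4 (e ▸ w1.right_mem))
      · exact Or.inl (h.eq_of hu hz h4 (e ▸ z1.right_mem))
    · exact Or.inl (h.eq_of hu hz h4 h6)
  · exact absurd ⟨Or.inr z1.right_mem, h5 h1⟩ (disjoint_left.1 h3 h1)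

theorem side {K₁ K₂ : Set E} (k₁ : IsClosed K₁) (k₂ : IsClosed K₂) (hk : Disjoint K₁ K₂)
    (hu : K₁ ∪ K₂ = {x ∈ D | c ≤ ψ x}) (hz : z ∈ Z) (h1 : z ∈ K₁) : Disjoint (I z) K₂ := by
  obtain ⟨Im, Ip, h2, h3, h4, h5, h6⟩ := h.halves hz
  have h7 : Ip ⊆ K₁ ∪ K₂ := fun x hx => hu.ge ⟨h.ball.1 ((h.arc z hz).2.1 (h4.le (Or.inr hx))), by
    by_cases e : x = z
    · rw [e, ((h.zero z).1 hz).2]
    · exact (h6 x hx e).le⟩
  refine disjoint_left.2 fun x hx hx' => ?_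
  rcases subset_or h3.isConnected.isPreconnected k₁ k₂ h7
    (by rw [hk.inter_eq]; exact disjoint_empty _) with h8 | h8
  · rcases h4.ge hx with h9 | h9
    · by_cases e : x = z
      · exact disjoint_left.1 hk (e ▸ h1) hx'
      · exact (h5 x h9 e).not_ge (hu.le (Or.inr hx')).2
    · exact disjoint_left.1 hk (h8 h9) hx'
  · exact disjoint_left.1 hk h1 (h8 h3.left_mem)

/-- a cross-cut of constant sign which separates the zeros -/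
theorem exists_cut (hup : Up D B ψ c) {w u : E} (hz : z ∈ Z) (hw : w ∈ Z) (hwz : w ≠ z)
    {A : Set E} (a1 : IsArc A (zp w) (zp z)) (a2 : A ⊆ B) (a4 : ∀ x ∈ A, c < ψ x)
    (a3 : ∀ u ∈ Z, A ∩ I u ⊆ {zp w, zp z}) (hu : u ∈ Z) (huz : u ≠ z) (huw : u ≠ w) :
    ∃ p ∈ B, ∃ q ∈ B, ∃ β, IsArc β p q ∧ β ⊆ D ∧ β ∩ B ⊆ {p, q} ∧
      ((∀ x ∈ β, c < ψ x) ∨ ∀ x ∈ β, ψ x < c) ∧ (∀ v ∈ Z, p ∉ I v ∧ q ∉ I v) ∧
      ∀ S, IsPreconnected S → S ⊆ B → p ∈ S → q ∈ S → ∃ v ∈ S, v ∈ Z := by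
  obtain ⟨u', -, -, A', b1, b2, b4, b3⟩ := h.nbr hu
  obtain ⟨a, ha, ha'⟩ := arc_inner_nonempty a1
  obtain ⟨b, hb, hb'⟩ := arc_inner_nonempty b1
  have key : ∀ S, IsPreconnected S → S ⊆ B → a ∈ S → b ∈ S → ∃ v ∈ S, v ∈ Z := by
    intro S s1 s2 s3 s4
    by_contra h1
    push Not at h1
    have h2 := h.pos_of s1 s2 h1 s3 (a4 a ha)
    exact (h.three hz hw hwz a1 a2 a3 ((a1.isConnected.isPreconnected.union a ha s3 s1).union b
      (Or.inr s4) hb b1.isConnected.isPreconnected) (union_subset (union_subset a2 s2) b2)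
      (fun x hx => hx.elim (fun h3 => h3.elim (a4 x) (h2 x)) (b4 x))
      (Or.inl (Or.inl a1.right_mem)) hu (Or.inr b1.right_mem)).elim huz huw
  have hab : a ≠ b := by
    rintro rfl
    obtain ⟨v, rfl, h1⟩ := key {a} isPreconnected_singleton (singleton_subset_iff.2 (a2 ha)) rfl rfl
    exact (a4 _ ha).ne' ((h.zero _).1 h1).2
  rcases hup a (a2 ha) b (b2 hb) (a4 a ha) (b4 b hb) with h1 | ⟨c', hc, h1⟩
  · obtain ⟨β, h2, h3, h4⟩ := join h.ball (ro_lt continuousOn_const h.cont) h1 hab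
    exact ⟨a, a2 ha, b, b2 hb, β, h2, fun x hx => (h3 hx).1, h4, Or.inl fun x hx => (h3 hx).2,
      fun v hv => ⟨fun h5 => ha' (a3 v hv ⟨ha, h5⟩), fun h5 => hb' (b3 v hv ⟨hb, h5⟩)⟩, key⟩
  · obtain ⟨K₁, K₂, k₁, k₂, hk, hK, h2, h3⟩ := split_closed h.ball
      (ro_lt continuousOn_const h.cont) h.closed_ge (fun x hx => ⟨hx.1, hc.trans_le hx.2⟩)
      ⟨h.ball.1 (a2 ha), (a4 a ha).le⟩ ⟨h.ball.1 (b2 hb), (b4 b hb).le⟩ h1
    obtain ⟨A₁, A₂, e1, e2, e3, e4⟩ := circle_arcs h.ball.isCircleD (a2 ha) (b2 hb) hab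
    have s1 : A₁ ⊆ B := e3 ▸ subset_union_left
    have s2 : A₂ ⊆ B := e3 ▸ subset_union_right
    obtain ⟨x, hx, y, hy, h4⟩ := sep h.ball (k₁.union (h.closed_I (· ∈ K₁)))
      (k₂.union (h.closed_I (· ∈ K₂))) (by
        simp only [disjoint_union_left, disjoint_union_right, disjoint_iUnion₂_left,
          disjoint_iUnion₂_right]
        exact ⟨⟨hk, fun v hv => h.side k₁ k₂ hk hK hv.1 hv.2⟩, fun v hv =>
          ⟨(h.side k₂ k₁ hk.symm (union_comm _ _ ▸ hK) hv.1 hv.2).symm,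
          fun v' hv' => h.disj _ hv'.1 _ hv.1 fun e => disjoint_left.1 hk hv'.2 (e ▸ hv.2)⟩⟩)
      e1.isConnected.isPreconnected e2.isConnected.isPreconnected (s1.trans h.ball.1)
      (s2.trans h.ball.1) ⟨e1.left_mem, e2.left_mem⟩ ⟨e1.right_mem, e2.right_mem⟩
      (Or.inl h2) (Or.inl h3)
    have h5 : ∀ t ∈ D ∩ (K₁ ∪ (⋃ w ∈ {w | w ∈ Z ∧ w ∈ K₁}, I w) ∪
        (K₂ ∪ ⋃ w ∈ {w | w ∈ Z ∧ w ∈ K₂}, I w))ᶜ, ψ t < c ∧ ∀ v ∈ Z, t ∉ I v := by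
      refine fun t ht => ⟨not_le.1 fun h5 => ht.2 ((hK.ge ⟨ht.1, h5⟩).imp Or.inl Or.inl),
        fun v hv h5 => ht.2 ((hK.ge ⟨h.ball.1 ((h.zero v).1 hv).1,
          ((h.zero v).1 hv).2.ge⟩).imp (fun h6 => Or.inr ?_) fun h6 => Or.inr ?_)⟩ <;>
        exact mem_biUnion (t := I) ⟨hv, h6⟩ h5
    have h6 := h5 x (connectedComponentIn_nonempty_iff.1 ⟨y, h4⟩)
    have h7 := h5 y (connectedComponentIn_subset _ _ h4)
    have h8 : ∀ t ∈ A₁ ∩ A₂, c < ψ t := by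
      rw [e4]
      rintro t (rfl | rfl)
      exacts [a4 _ ha, b4 _ hb]
    obtain ⟨β, h9, h10, h11⟩ := join h.ball (ro_inter ((k₁.union (h.closed_I (· ∈ K₁))).union
      (k₂.union (h.closed_I (· ∈ K₂)))).isOpen_compl) h4 fun e =>
        lt_asymm h6.1 (h8 x ⟨hx, e ▸ hy⟩)
    refine ⟨x, s1 hx, y, s2 hy, β, h9, fun t ht => (h10 ht).1, h11,
      Or.inr fun t ht => (h5 t (h10 ht)).1, fun v hv => ⟨h6.2 v hv, h7.2 v hv⟩,
      fun S t1 t2 t3 t4 => ?_⟩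
    by_contra h12
    push Not at h12
    rcases subset_or t1 e1.isClosed e2.isClosed (e3 ▸ t2) (disjoint_left.2 fun t ht ht' =>
      lt_asymm (h.neg_of t1 t2 h12 t3 h6.1 t ht) (h8 t ht')) with h13 | h13
    · exact lt_asymm h7.1 (h8 y ⟨h13 t4, hy⟩)
    · exact lt_asymm h6.1 (h8 x ⟨hx, h13 t3⟩)

end Hyp

end Face

end P073
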