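import Vale.Agent.P073Z.DISC2.Path
import Vale.Agent.P073Z.A12

/-!
# Components of open subsets of a disc; unicoherence
-/

open Set Metric Topology Filter

namespace P073

namespace Face

variable {E : Type} [NormedAddCommGroup E] [NormedSpace ℝ E] {n : ℕ} {D B T : Set E}

/-- relatively open subsets -/
def RO (D T : Set E) : Prop := T ⊆ D ∧ ∀ x ∈ T, T ∈ 𝓝[D] x

omit [NormedSpace ℝ E] in
theorem ro_inter {O : Set E} (hO : IsOpen O) : RO D (D ∩ O) :=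
  ⟨inter_subset_left, fun _ hx => inter_mem_nhdsWithin D (hO.mem_nhds hx.2)⟩

omit [NormedSpace ℝ E] in
theorem ro_lt {f g : E → ℝ} (hf : ContinuousOn f D) (hg : ContinuousOn g D) :
    RO D {x ∈ D | f x < g x} :=
  ⟨fun _ h => h.1, fun x hx => inter_mem self_mem_nhdsWithin
    ((hf x hx.1).eventually_lt (hg x hx.1) hx.2)⟩

/-- unions of components are relatively open -/
theorem sat_open (hD : ConBall n D B) (hT : RO D T) {S : Set E} (hS : S ⊆ T)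
    (h : ∀ x ∈ S, connectedComponentIn T x ⊆ S) : ∃ O, IsOpen O ∧ D ∩ O = S := by
  choose O h1 h2 h3 h4 h5 using fun x : S => hD.local (hT.1 (hS x.2)) (hT.2 x (hS x.2))
  refine ⟨⋃ x, O x, isOpen_iUnion h1, Subset.antisymm ?_ fun x hx =>
    ⟨hT.1 (hS hx), mem_iUnion.2 ⟨⟨x, hx⟩, h2 _⟩⟩⟩
  rintro y ⟨hy, hy'⟩
  obtain ⟨x, hx⟩ := mem_iUnion.1 hy'
  exact h x x.2 ((h4 x).subset_connectedComponentIn ⟨hT.1 (hS x.2), h2 x⟩ (h3 x) ⟨hy, hx⟩)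

theorem sat_split (hD : ConBall n D B) (hT : RO D T) {S : Set E} (hS : S ⊆ T)
    (h : ∀ x ∈ S, connectedComponentIn T x ⊆ S) :
    ∃ O O', IsOpen O ∧ IsOpen O' ∧ D ∩ O = S ∧ D ∩ O' = T \ S := by
  obtain ⟨O, h1, h2⟩ := sat_open hD hT hS h
  obtain ⟨O', h3, h4⟩ := sat_open hD hT (S := T \ S) sdiff_subset fun x hx y hy =>
    ⟨connectedComponentIn_subset _ _ hy, fun h5 => hx.2 (h y h5 (by
      rw [← connectedComponentIn_eq hy]
      exact mem_connectedComponentIn hx.1))⟩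
  exact ⟨O, O', h1, h3, h2, h4⟩

theorem comp_split (hD : ConBall n D B) (hT : RO D T) (a : E) : ∃ O O', IsOpen O ∧ IsOpen O' ∧
    D ∩ O = connectedComponentIn T a ∧ D ∩ O' = T \ connectedComponentIn T a :=
  sat_split hD hT (connectedComponentIn_subset _ _) fun _ hx => (connectedComponentIn_eq hx).ge

/-- a closed set is cut in two pieces -/
theorem split_closed (hD : ConBall n D B) (hT : RO D T) {K : Set E} (hK : IsClosed K)
    (hKT : K ⊆ T) {a b : E} (ha : a ∈ K) (hb : b ∈ K) (h : b ∉ connectedComponentIn T a) :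
    ∃ K₁ K₂, IsClosed K₁ ∧ IsClosed K₂ ∧ Disjoint K₁ K₂ ∧ K₁ ∪ K₂ = K ∧ a ∈ K₁ ∧ b ∈ K₂ := by
  obtain ⟨O, O', h1, h2, h3, h4⟩ := comp_split hD hT a
  refine ⟨K \ O', K \ O, hK.sdiff h2, hK.sdiff h1, disjoint_left.2 fun x hx hx' => ?_,
    Subset.antisymm (union_subset sdiff_subset sdiff_subset) fun x hx => ?_,
    ⟨ha, fun h5 => (h4.le ⟨hT.1 (hKT ha), h5⟩).2 (mem_connectedComponentIn (hKT ha))⟩,
    hb, fun h5 => h (h3.le ⟨hT.1 (hKT hb), h5⟩)⟩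
  · exact hx.2 (h4.ge ⟨hKT hx.1, fun h5 => hx'.2 (h3.ge h5).2⟩).2
  · by_cases h5 : x ∈ O
    · exact Or.inl ⟨hx, fun h6 => (h4.le ⟨hT.1 (hKT hx), h6⟩).2 (h3.le ⟨hT.1 (hKT hx), h5⟩)⟩
    · exact Or.inr ⟨hx, h5⟩

/-- cross-cuts in open sets -/
theorem join (hD : ConBall 2 D B) (hT : RO D T) {a b : E} (h : b ∈ connectedComponentIn T a)
    (hab : a ≠ b) : ∃ A, IsArc A a b ∧ A ⊆ T ∧ A ∩ B ⊆ {a, b} := by
  obtain ⟨O, -, h1, -, h2, -⟩ := comp_split hD hT a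
  obtain ⟨A, h3, h4, h5⟩ := (path_of arcs).2.1 hD h1
    (by rw [h2]; exact isPreconnected_connectedComponentIn)
    (by rw [h2]; exact mem_connectedComponentIn (connectedComponentIn_nonempty_iff.1 ⟨b, h⟩))
    (h2.ge h) hab
  exact ⟨A, h3, (h4.trans h2.le).trans (connectedComponentIn_subset _ _), h5⟩

/-- unicoherence of balls -/
theorem unic (hD : ConBall n D B) {F₁ F₂ K₁ K₂ A₁ A₂ : Set E} (f₁ : IsClosed F₁)
    (f₂ : IsClosed F₂) (hu : D ⊆ F₁ ∪ F₂) (k₁ : IsClosed K₁) (k₂ : IsClosed K₂)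
    (hk : Disjoint K₁ K₂) (hi : D ∩ (F₁ ∩ F₂) ⊆ K₁ ∪ K₂) (a₁ : IsPreconnected A₁)
    (a₂ : IsPreconnected A₂) (s₁ : A₁ ⊆ D ∩ F₁) (s₂ : A₂ ⊆ D ∩ F₂) {a b : E}
    (ha : a ∈ A₁ ∩ A₂) (hb : b ∈ A₁ ∩ A₂) (ha' : a ∈ K₁) (hb' : b ∈ K₂) : False := by
  classical
  obtain ⟨u, u0, u1, -⟩ := exists_continuous_zero_one_of_isClosed k₁ k₂ hk
  let θ : E → AddCircle (1 : ℝ) := fun x => if x ∈ F₁ then ((u x / 2 : ℝ) : AddCircle (1 : ℝ))
    else ((-(u x / 2) : ℝ) : AddCircle (1 : ℝ))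
  have e₁ : ∀ x ∈ D ∩ F₁, θ x = ((u x / 2 : ℝ) : AddCircle (1 : ℝ)) := fun x hx => if_pos hx.2
  have e₂ : ∀ x ∈ D ∩ F₂, θ x = ((-(u x / 2) : ℝ) : AddCircle (1 : ℝ)) := by
    intro x hx
    by_cases h : x ∈ F₁
    · rw [e₁ x ⟨hx.1, h⟩]
      rcases hi ⟨hx.1, h, hx.2⟩ with h1 | h1
      · rw [u0 h1]
        simp
      · rw [u1 h1, ← AddCircle.coe_add_period 1 (-_)]
        norm_num
    · exact if_neg h
  have hc : ContinuousOn θ D := by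
    rw [← inter_eq_left.2 hu, inter_union_distrib_left]
    exact ContinuousOn.union_of_isClosed
      (((AddCircle.continuous_mk' 1).comp (by fun_prop)).continuousOn.congr e₁)
      (((AddCircle.continuous_mk' 1).comp (by fun_prop)).continuousOn.congr e₂)
      (hD.isClosed.inter f₁) (hD.isClosed.inter f₂)
  obtain ⟨-, φ, -⟩ := hD
  obtain ⟨l, hl, h1⟩ := idx (convex_closedBall _ _)
    ⟨φ.mapsTo, φ.mapsTo_inv, φ.left_inv, φ.right_inv, φ.cont, φ.cont_inv⟩ hc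
  have key : ∀ {A : Set E} {g : E → ℝ}, IsPreconnected A → A ⊆ D → Continuous g →
      (∀ x ∈ A, θ x = (g x : AddCircle (1 : ℝ))) → a ∈ A → b ∈ A → l a - g a = l b - g b := by
    intro A g h2 h3 h4 h5 h6 h7
    refine h2.constant_of_mapsTo Int.isClosedEmbedding_coe_real.isInducing.isDiscrete_range
      ((hl.mono h3).sub h4.continuousOn) (fun x hx => ?_) h6 h7
    obtain ⟨k, hk⟩ := (AddCircle.coe_eq_zero_iff (1 : ℝ)).1 (show ((l x - g x : ℝ) :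
      AddCircle (1 : ℝ)) = 0 by rw [AddCircle.coe_sub, h1 x (h3 hx), h5 x hx, sub_self])
    exact ⟨k, by simpa using hk⟩
  have h2 := key (g := fun x => u x / 2) a₁ (s₁.trans inter_subset_left) (by fun_prop)
    (fun x hx => e₁ x (s₁ hx)) ha.1 hb.1
  have h3 := key (g := fun x => -(u x / 2)) a₂ (s₂.trans inter_subset_left) (by fun_prop)
    (fun x hx => e₂ x (s₂ hx)) ha.2 hb.2
  simp only [u0 ha', u1 hb', Pi.zero_apply, Pi.one_apply] at h2 h3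
  linarith

/-- two disjoint closed sets do not separate two continua which join them -/
theorem sep (hD : ConBall n D B) {K₁ K₂ A₁ A₂ : Set E} (k₁ : IsClosed K₁) (k₂ : IsClosed K₂)
    (hk : Disjoint K₁ K₂) (a₁ : IsPreconnected A₁) (a₂ : IsPreconnected A₂) (s₁ : A₁ ⊆ D)
    (s₂ : A₂ ⊆ D) {a b : E} (ha : a ∈ A₁ ∩ A₂) (hb : b ∈ A₁ ∩ A₂) (ha' : a ∈ K₁) (hb' : b ∈ K₂) :
    ∃ x ∈ A₁, ∃ y ∈ A₂, y ∈ connectedComponentIn (D ∩ (K₁ ∪ K₂)ᶜ) x := by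
  by_contra h
  push Not at h
  obtain ⟨O, O', h1, h2, h3, h4⟩ := sat_split hD (ro_inter (k₁.union k₂).isOpen_compl)
    (S := ⋃ x ∈ A₁, connectedComponentIn (D ∩ (K₁ ∪ K₂)ᶜ) x)
    (iUnion₂_subset fun _ _ => connectedComponentIn_subset _ _) fun y hy => by
      obtain ⟨x, hx, h5⟩ := mem_iUnion₂.1 hy
      exact (connectedComponentIn_eq h5).ge.trans (subset_biUnion_of_mem hx)
  refine unic hD h2.isClosed_compl h1.isClosed_compl (fun x hx => ?_) k₁ k₂ hk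
    (fun x hx => ?_) a₁ a₂ (fun x hx => ⟨s₁ hx, fun h5 => ?_⟩)
    (fun x hx => ⟨s₂ hx, fun h5 => ?_⟩) ha hb ha' hb'
  · by_contra h5
    rw [← compl_inter, notMem_compl_iff] at h5
    exact (h4.le ⟨hx, h5.1⟩).2 (h3.le ⟨hx, h5.2⟩)
  · by_contra h5
    exact hx.2.1 (h4.ge ⟨⟨hx.1, h5⟩, fun h6 => hx.2.2 (h3.ge h6).2⟩).2
  · have h6 := h4.le ⟨s₁ hx, h5⟩
    exact h6.2 (mem_biUnion hx (mem_connectedComponentIn h6.1))
  · obtain ⟨y, hy, h6⟩ := mem_iUnion₂.1 (h3.le ⟨s₂ hx, h5⟩)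
    exact h y hy x hx h6

/-- the level set joins two points which are joined above and below -/
theorem mid (hD : ConBall n D B) {ψ : E → ℝ} (hψ : ContinuousOn ψ D) {c : ℝ} {A₁ A₂ O : Set E}
    (a₁ : IsPreconnected A₁) (a₂ : IsPreconnected A₂) (s₁ : ∀ x ∈ A₁, x ∈ D ∧ c ≤ ψ x)
    (s₂ : ∀ x ∈ A₂, x ∈ D ∧ ψ x ≤ c) {a b : E} (ha : a ∈ A₁ ∩ A₂) (hb : b ∈ A₁ ∩ A₂)
    (hO : IsOpen O) (h : {x ∈ D | ψ x = c} ⊆ O) : b ∈ connectedComponentIn (D ∩ O) a := by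
  by_contra h1
  have c₁ : IsClosed {x ∈ D | c ≤ ψ x} := hψ.preimage_isClosed_of_isClosed hD.isClosed isClosed_Ici
  have c₂ : IsClosed {x ∈ D | ψ x ≤ c} := hψ.preimage_isClosed_of_isClosed hD.isClosed isClosed_Iic
  have c₃ : IsClosed {x ∈ D | ψ x = c} :=
    hψ.preimage_isClosed_of_isClosed hD.isClosed isClosed_singleton
  obtain ⟨K₁, K₂, k₁, k₂, hk, hu, h2, h3⟩ := split_closed hD (ro_inter hO) c₃
    (fun x hx => ⟨hx.1, h hx⟩) ⟨(s₁ a ha.1).1, le_antisymm (s₂ a ha.2).2 (s₁ a ha.1).2⟩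
    ⟨(s₁ b hb.1).1, le_antisymm (s₂ b hb.2).2 (s₁ b hb.1).2⟩ h1
  exact unic hD c₁ c₂ (fun x hx => (le_total c (ψ x)).imp (⟨hx, ·⟩) (⟨hx, ·⟩)) k₁ k₂ hk
    (fun x hx => hu.ge ⟨hx.1, le_antisymm hx.2.2.2 hx.2.1.2⟩) a₁ a₂
    (fun x hx => ⟨(s₁ x hx).1, s₁ x hx⟩) (fun x hx => ⟨(s₂ x hx).1, s₂ x hx⟩) ha hb h2 h3

theorem subset_or {X : Type} [TopologicalSpace X] {S u v : Set X} (hS : IsPreconnected S)
    (hu : IsClosed u) (hv : IsClosed v) (h : S ⊆ u ∪ v) (h' : Disjoint S (u ∩ v)) :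
    S ⊆ u ∨ S ⊆ v :=
  isPreconnected_iff_subset_of_disjoint_closed.1 hS u v hu hv h h'.inter_eq

/-- connections survive cutting along a continuum -/
theorem cut {X : Type} [TopologicalSpace X] {D₁ D₂ β W : Set X} (d₁ : IsClosed D₁)
    (d₂ : IsClosed D₂) (hi : D₁ ∩ D₂ = β) (hβ : IsPreconnected β) (hW : β ⊆ W ∨ Disjoint β W)
    {x y : X} (hx : x ∈ D₁) (hy : y ∈ D₁) (h : y ∈ connectedComponentIn ((D₁ ∪ D₂) ∩ W) x) :
    y ∈ connectedComponentIn (D₁ ∩ W) x := by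
  have hS := connectedComponentIn_subset ((D₁ ∪ D₂) ∩ W) x
  have hc : IsPreconnected (connectedComponentIn ((D₁ ∪ D₂) ∩ W) x) :=
    isPreconnected_connectedComponentIn
  have hxS := mem_connectedComponentIn (connectedComponentIn_nonempty_iff.1 ⟨y, h⟩)
  generalize connectedComponentIn ((D₁ ∪ D₂) ∩ W) x = S at hS hc hxS h
  by_cases h1 : Disjoint S β
  · rcases subset_or hc d₁ d₂ (hS.trans inter_subset_left) (hi ▸ h1) with h2 | h2
    · exact hc.subset_connectedComponentIn hxS (fun z hz => mem_inter (h2 hz) (hS hz).2) h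
    · exact absurd (hi.le ⟨hx, h2 hxS⟩) (disjoint_left.1 h1 hxS)
  · obtain ⟨p, hp, hp'⟩ := not_disjoint_iff.1 h1
    have h2 : β ⊆ W := hW.resolve_right fun h3 => disjoint_left.1 h3 hp' (hS hp).2
    have key : ∀ t t', IsClosed t → IsClosed t' → S ∩ D₁ ∪ β ⊆ t ∪ t' → β ⊆ t →
        ((S ∩ D₁ ∪ β) ∩ t').Nonempty → ((S ∩ D₁ ∪ β) ∩ (t ∩ t')).Nonempty := by
      rintro t t' ht ht' h3 h4 ⟨q, hq | hq, hq'⟩
      · obtain ⟨r, hr, h5, h6⟩ := isPreconnected_closed_iff.1 hc (t ∪ D₂) (t' ∩ D₁)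
          (ht.union d₂) (ht'.inter d₁) (fun z hz => (hS hz).1.elim (fun h5 =>
            (h3 (Or.inl ⟨hz, h5⟩)).imp Or.inl (⟨·, h5⟩)) fun h5 => Or.inl (Or.inr h5))
          ⟨p, hp, Or.inl (h4 hp')⟩ ⟨q, hq.1, hq', hq.2⟩
        exact ⟨r, Or.inl ⟨hr, h6.2⟩, h5.elim id fun h7 => h4 (hi.le ⟨h6.2, h7⟩), h6.1⟩
      · exact ⟨q, Or.inr hq, h4 hq, hq'⟩
    have h3 : IsPreconnected (S ∩ D₁ ∪ β) := by
      refine isPreconnected_closed_iff.2 fun t t' ht ht' h3 h4 h5 => ?_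
      by_contra h6
      rcases subset_or hβ ht ht' (subset_union_right.trans h3)
        (disjoint_left.2 fun z hz hz' => h6 ⟨z, Or.inr hz, hz'⟩) with h7 | h7
      · exact h6 (key t t' ht ht' h3 h7 h5)
      · exact h6 (inter_comm t' t ▸ key t' t ht' ht (union_comm t t' ▸ h3) h7 h4)
    exact h3.subset_connectedComponentIn (Or.inl ⟨hxS, hx⟩) (union_subset
      (fun z hz => mem_inter hz.2 (hS hz.1).2) fun z hz => mem_inter (hi.ge hz).1 (h2 hz))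
      (Or.inl ⟨h, hy⟩)

end Face

end P073
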